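import Vale.Agent.H39.D7.Defs

/-!
TASK D7-ORBPTS (replace every `sorry`, keep the statements exactly; helper lemmas in this file,
names starting `opt_`).

Orbit sums at the boundary of the grid.  `osum c G x = ∑ u, if bwt c u = x then G u else 0`,
`bwt c u b = #{j | c j = b ∧ u j = true}`, `bsz c b = #{j | c j = b}`.
* all block weights `0`: only the all-`false` point;
* block weights `bsz c`: only the all-`true` point;
* block weights `e_b`: the points `update (fun _ => false) j true` with `c j = b`;
* block weights `bsz c - e_b` (block `b` nonempty): the points `update (fun _ => true) j false`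
  with `c j = b`.

Sketch.  `osum_zero`, `osum_top`: `Finset.sum_eq_single`; `bwt c u = 0` forces every `u j = false`
(look at the colour `c j`: `Finset.card_eq_zero`, `Finset.filter_eq_empty_iff`); `bwt c u b = bsz c b`
for all `b` forces every `u j = true` (`Finset.eq_of_subset_of_card_le` for
`filter (c j = b ∧ u j) ⊆ filter (c j = b)`).
`osum_single`: if `bwt c u = e_b` then `hw u = ∑ b', bwt c u b' = 1` (`hw` of D4/Defs.lean;
`Finset.card_eq_sum_card_fiberwise`), so one may insert `if hw u = 1` and use `layer_one`
(D4/LayerPts.lean: `layer G 1 = ∑ j, G (update (fun _ => false) j true)`) for the function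
`u ↦ if bwt c u = e_b then G u else 0`, then `bwt c (update (fun _ => false) j true) = e_(c j)`.
Or directly: `Finset.sum_bij` / `Finset.sum_nbij'` between `{u | bwt c u = e_b}` and
`{j | c j = b}`.  `osum_cosingle` is the same with `layer_pred` (needs `2 ≤ m`; treat small `m`
directly) or a direct bijection; the hypothesis `1 ≤ bsz c b` is needed (truncated subtraction).

Proof as written here: the two statements at the top of the grid are reduced to the two at the
bottom by the pointwise negation `opt_neg` (`bwt c u b + bwt c (opt_neg u) b = bsz c b`).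
-/

namespace Vale.Agent.H39

open Finset

/-- pointwise negation of a point of the cube -/
def opt_neg {m : ℕ} (u : Fin m → Bool) : Fin m → Bool := fun j => !(u j)

theorem opt_neg_neg {m : ℕ} (u : Fin m → Bool) : opt_neg (opt_neg u) = u := by
  funext j
  simp [opt_neg]

theorem opt_bwt_add {m : ℕ} (c : Fin m → Fin 4) (u : Fin m → Bool) (b : Fin 4) :
    bwt c u b + bwt c (opt_neg u) b = bsz c b := by
  unfold bwt bsz opt_neg
  have h := Finset.card_filter_add_card_filter_not (s := univ.filter (fun j => c j = b))
    (fun j => u j = true)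
  rw [Finset.filter_filter, Finset.filter_filter] at h
  have e : (univ.filter (fun j => c j = b ∧ (!(u j)) = true)) =
      univ.filter (fun j => c j = b ∧ ¬ (u j = true)) := by
    apply Finset.filter_congr
    intro j _
    simp
  rw [e]
  exact h

theorem opt_bwt_zero_iff {m : ℕ} (c : Fin m → Fin 4) (u : Fin m → Bool) :
    bwt c u = (fun _ => 0) ↔ u = fun _ => false := by
  constructor
  · intro h
    funext j
    have hj := congrFun h (c j)
    unfold bwt at hj
    rw [Finset.card_eq_zero, Finset.filter_eq_empty_iff] at hj
    have := hj (Finset.mem_univ j)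
    simpa using this
  · rintro rfl
    funext b
    simp [bwt]

theorem opt_osum_neg {m : ℕ} (c : Fin m → Fin 4) (G : (Fin m → Bool) → ℝ) (x x' : Fin 4 → ℕ)
    (h : ∀ u, bwt c u = x ↔ bwt c (opt_neg u) = x') :
    osum c G x = osum c (fun v => G (opt_neg v)) x' := by
  unfold osum
  apply Fintype.sum_equiv (⟨opt_neg, opt_neg, opt_neg_neg, opt_neg_neg⟩ :
    (Fin m → Bool) ≃ (Fin m → Bool))
  intro u
  simp only [Equiv.coe_fn_mk, opt_neg_neg]
  by_cases hu : bwt c u = x
  · have hu' := (h u).1 hu
    simp [hu, hu']
  · have hu' : ¬ bwt c (opt_neg u) = x' := fun h' => hu ((h u).2 h')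
    simp [hu, hu']

theorem opt_bwt_single {m : ℕ} (c : Fin m → Fin 4) (j : Fin m) (b' : Fin 4) :
    bwt c (Function.update (fun _ => false) j true) b' = if b' = c j then 1 else 0 := by
  unfold bwt
  by_cases hb : b' = c j
  · rw [if_pos hb]
    rw [Finset.card_eq_one]
    refine ⟨j, ?_⟩
    ext j'
    simp only [mem_filter, mem_univ, true_and, mem_singleton]
    constructor
    · rintro ⟨_, h2⟩
      by_contra hne
      rw [Function.update_of_ne hne] at h2
      exact absurd h2 (by simp)
    · rintro rfl
      exact ⟨hb.symm, by simp⟩
  · rw [if_neg hb, Finset.card_eq_zero, Finset.filter_eq_empty_iff]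
    rintro j' _ ⟨h1, h2⟩
    by_cases hne : j' = j
    · subst hne
      exact hb h1.symm
    · rw [Function.update_of_ne hne] at h2
      simp at h2

theorem opt_single_surj {m : ℕ} (c : Fin m → Fin 4) (b : Fin 4) (u : Fin m → Bool)
    (hu : bwt c u = fun b' => if b' = b then 1 else 0) :
    ∃ j, c j = b ∧ u = Function.update (fun _ => false) j true := by
  have hb := congrFun hu b
  simp only [if_true] at hb
  unfold bwt at hb
  rw [Finset.card_eq_one] at hb
  obtain ⟨j0, hj0⟩ := hb
  have hj0mem : j0 ∈ univ.filter (fun j => c j = b ∧ u j = true) := by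
    rw [hj0]
    exact mem_singleton_self _
  rw [mem_filter] at hj0mem
  refine ⟨j0, hj0mem.2.1, ?_⟩
  funext j
  by_cases hj : j = j0
  · subst hj
    simp [hj0mem.2.2]
  · rw [Function.update_of_ne hj]
    by_contra hne
    have hjt : u j = true := by simpa using hne
    by_cases hcb : c j = b
    · have hmem : j ∈ univ.filter (fun j => c j = b ∧ u j = true) := by simp [hcb, hjt]
      rw [hj0, mem_singleton] at hmem
      exact hj hmem
    · have h0 := congrFun hu (c j)
      simp only [if_neg hcb] at h0
      unfold bwt at h0
      rw [Finset.card_eq_zero, Finset.filter_eq_empty_iff] at h0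
      exact h0 (mem_univ j) ⟨rfl, hjt⟩

theorem osum_zero {m : ℕ} (c : Fin m → Fin 4) (G : (Fin m → Bool) → ℝ) :
    osum c G (fun _ => 0) = G (fun _ => false) := by
  unfold osum
  simp_rw [opt_bwt_zero_iff]
  simp

theorem osum_top {m : ℕ} (c : Fin m → Fin 4) (G : (Fin m → Bool) → ℝ) :
    osum c G (fun b => bsz c b) = G (fun _ => true) := by
  have h : ∀ u, bwt c u = (fun b => bsz c b) ↔ bwt c (opt_neg u) = (fun _ => 0) := by
    intro u
    constructor
    · intro hu
      funext b
      have h1 := opt_bwt_add c u b
      have h2 : bwt c u b = bsz c b := congrFun hu b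
      omega
    · intro hu
      funext b
      have h1 := opt_bwt_add c u b
      have h2 : bwt c (opt_neg u) b = 0 := congrFun hu b
      omega
  rw [opt_osum_neg c G _ _ h, osum_zero]
  rfl

theorem osum_single {m : ℕ} (c : Fin m → Fin 4) (G : (Fin m → Bool) → ℝ) (b : Fin 4) :
    osum c G (fun b' => if b' = b then 1 else 0)
      = ∑ j : Fin m, if c j = b then G (Function.update (fun _ => false) j true) else 0 := by
  unfold osum
  rw [← Finset.sum_filter, ← Finset.sum_filter]
  symm
  apply Finset.sum_bij (fun j _ => Function.update (fun _ => false) j true)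
  · intro j hj
    rw [mem_filter] at hj ⊢
    refine ⟨mem_univ _, ?_⟩
    funext b'
    rw [opt_bwt_single, hj.2]
  · intro j1 _ j2 _ h
    have h1 := congrFun h j1
    simp only [Function.update_self] at h1
    by_contra hne
    rw [Function.update_of_ne hne] at h1
    simp at h1
  · intro u hu
    rw [mem_filter] at hu
    obtain ⟨j, hj, rfl⟩ := opt_single_surj c b u hu.2
    exact ⟨j, by simp [hj], rfl⟩
  · intro j _
    rfl

theorem osum_cosingle {m : ℕ} (c : Fin m → Fin 4) (G : (Fin m → Bool) → ℝ) (b : Fin 4)
    (hb : 1 ≤ bsz c b) :
    osum c G (fun b' => if b' = b then bsz c b' - 1 else bsz c b')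
      = ∑ j : Fin m, if c j = b then G (Function.update (fun _ => true) j false) else 0 := by
  have h : ∀ u, bwt c u = (fun b' => if b' = b then bsz c b' - 1 else bsz c b') ↔
      bwt c (opt_neg u) = (fun b' => if b' = b then 1 else 0) := by
    intro u
    constructor
    · intro hu
      funext b'
      have h1 := opt_bwt_add c u b'
      have h2 : bwt c u b' = if b' = b then bsz c b' - 1 else bsz c b' := congrFun hu b'
      by_cases hb' : b' = b
      · subst hb'
        rw [if_pos rfl] at h2 ⊢
        omega
      · rw [if_neg hb'] at h2 ⊢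
        omega
    · intro hu
      funext b'
      have h1 := opt_bwt_add c u b'
      have h2 : bwt c (opt_neg u) b' = if b' = b then 1 else 0 := congrFun hu b'
      by_cases hb' : b' = b
      · subst hb'
        rw [if_pos rfl] at h2 ⊢
        omega
      · rw [if_neg hb'] at h2 ⊢
        omega
  rw [opt_osum_neg c G _ _ h, osum_single]
  apply Finset.sum_congr rfl
  intro j _
  by_cases hj : c j = b
  · rw [if_pos hj, if_pos hj]
    congr 1
    funext j'
    by_cases hjj : j' = j
    · subst hjj
      simp [opt_neg]
    · simp [opt_neg, Function.update_of_ne hjj]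
  · rw [if_neg hj, if_neg hj]

end Vale.Agent.H39
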