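import Vale.Agent.H39.D7.OrbGen
import Vale.Agent.H39.D7.OrbPts

/-!
TASK D7-CERTBD (replace the `sorry`, keep the statement exactly; helper lemmas in this file,
names starting `cbd_`).  You may use `osum_abs_le` (OrbGen.lean) and `osum_zero`, `osum_top`,
`osum_single`, `osum_cosingle` (OrbPts.lean) even while they are still `sorry` there.

For a sign-valued `G` with value `-1` at the all-`false` point, `1` at the all-`true` point, and
values `v1 (c j)`, `v2 (c j)` at the neighbours of these two points in direction `j`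
(`v1 = ![1, 1, -1, -1]`, `v2 = ![1, -1, -1, 1]`), each entry `e` of a certificate satisfies
`cval e * osum c G (ckey e) ≤ ubd (bsz c 0) (bsz c 1) (bsz c 2) (bsz c 3) e`.

Sketch.  `unfold ubd` and `split_ifs`; eleven cases.
* Case 1 (`e.1 = 0 ∧ ...`): `ckey e = fun _ => 0` (`funext b; fin_cases b <;> simp [ckey, *]`),
  `osum_zero`, `h0`: equality.
* Case 2: `ckey e = fun b => bsz c b`, `osum_top`, `h1`.
* Cases 3-6: `ckey e = fun b' => if b' = b then 1 else 0` for `b = 0, 1, 2, 3`; `osum_single`;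
  `∑ j, if c j = b then G (update (fun _ => false) j true) else 0
     = ∑ j, if c j = b then (v1 b : ℝ) else 0 = (bsz c b : ℝ) * v1 b`
  (`hp`, `Finset.sum_ite`/`Finset.sum_boole`-style, `bsz` is the card of the filter), and
  `v1 0 = 1`, `v1 1 = 1`, `v1 2 = -1`, `v1 3 = -1` (`rfl` / `by simp [v1]`).
* Cases 7-10: `ckey e = fun b' => if b' = b then bsz c b' - 1 else bsz c b'`, `osum_cosingle`
  (the branch gives `1 ≤ bsz c b`), `hq`, `v2`.
* Case 11: `cval e * osum c G (ckey e) ≤ |cval e| * |osum c G (ckey e)|` (`le_abs_self`,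
  `abs_mul`), `osum_abs_le`, `Fin.prod_univ_four`, `cb_eq`, `push_cast`.
-/

namespace Vale.Agent.H39

open Finset

theorem cbd_single {m : ℕ} (c : Fin m → Fin 4) (G : (Fin m → Bool) → ℝ)
    (hp : ∀ j, G (Function.update (fun _ => false) j true) = ((v1 (c j) : ℤ) : ℝ)) (b : Fin 4) :
    osum c G (fun b' => if b' = b then 1 else 0) = (bsz c b : ℝ) * ((v1 b : ℤ) : ℝ) := by
  rw [osum_single]
  have h : ∀ j : Fin m, (if c j = b then G (Function.update (fun _ => false) j true) else 0)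
      = if c j = b then ((v1 b : ℤ) : ℝ) else 0 := by
    intro j
    by_cases hj : c j = b
    · rw [if_pos hj, if_pos hj, hp j, hj]
    · rw [if_neg hj, if_neg hj]
  rw [Finset.sum_congr rfl (fun j _ => h j)]
  rw [← Finset.sum_filter, Finset.sum_const, nsmul_eq_mul]
  rfl

theorem cbd_cosingle {m : ℕ} (c : Fin m → Fin 4) (G : (Fin m → Bool) → ℝ)
    (hq : ∀ j, G (Function.update (fun _ => true) j false) = ((v2 (c j) : ℤ) : ℝ)) (b : Fin 4)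
    (hb : 1 ≤ bsz c b) :
    osum c G (fun b' => if b' = b then bsz c b' - 1 else bsz c b')
      = (bsz c b : ℝ) * ((v2 b : ℤ) : ℝ) := by
  rw [osum_cosingle c G b hb]
  have h : ∀ j : Fin m, (if c j = b then G (Function.update (fun _ => true) j false) else 0)
      = if c j = b then ((v2 b : ℤ) : ℝ) else 0 := by
    intro j
    by_cases hj : c j = b
    · rw [if_pos hj, if_pos hj, hq j, hj]
    · rw [if_neg hj, if_neg hj]
  rw [Finset.sum_congr rfl (fun j _ => h j)]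
  rw [← Finset.sum_filter, Finset.sum_const, nsmul_eq_mul]
  rfl

theorem cbd_ckey (e : CEntry) (x : Fin 4 → ℕ) (h0 : e.1 = x 0) (h1 : e.2.1 = x 1)
    (h2 : e.2.2.1 = x 2) (h3 : e.2.2.2.1 = x 3) : ckey e = x := by
  funext b
  fin_cases b
  · exact h0
  · exact h1
  · exact h2
  · exact h3

theorem cbd_v1_0 : v1 0 = 1 := rfl
theorem cbd_v1_1 : v1 1 = 1 := rfl
theorem cbd_v1_2 : v1 2 = -1 := rfl
theorem cbd_v1_3 : v1 3 = -1 := rfl
theorem cbd_v2_0 : v2 0 = 1 := rfl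
theorem cbd_v2_1 : v2 1 = -1 := rfl
theorem cbd_v2_2 : v2 2 = -1 := rfl
theorem cbd_v2_3 : v2 3 = 1 := rfl

theorem cert_bd {m : ℕ} (c : Fin m → Fin 4) (G : (Fin m → Bool) → ℝ)
    (hG : ∀ u, G u = 1 ∨ G u = -1) (h0 : G (fun _ => false) = -1) (h1 : G (fun _ => true) = 1)
    (hp : ∀ j, G (Function.update (fun _ => false) j true) = ((v1 (c j) : ℤ) : ℝ))
    (hq : ∀ j, G (Function.update (fun _ => true) j false) = ((v2 (c j) : ℤ) : ℝ)) (e : CEntry) :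
    ((cval e : ℤ) : ℝ) * osum c G (ckey e)
      ≤ ((ubd (bsz c 0) (bsz c 1) (bsz c 2) (bsz c 3) e : ℤ) : ℝ) := by
  unfold ubd
  by_cases c1 : e.1 = 0 ∧ e.2.1 = 0 ∧ e.2.2.1 = 0 ∧ e.2.2.2.1 = 0
  · rw [if_pos c1]
    have hk : ckey e = fun _ => 0 := cbd_ckey e _ c1.1 c1.2.1 c1.2.2.1 c1.2.2.2
    rw [hk, osum_zero, h0]
    push_cast
    linarith
  rw [if_neg c1]
  by_cases c2 : e.1 = bsz c 0 ∧ e.2.1 = bsz c 1 ∧ e.2.2.1 = bsz c 2 ∧ e.2.2.2.1 = bsz c 3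
  · rw [if_pos c2]
    have hk : ckey e = fun b => bsz c b := cbd_ckey e _ c2.1 c2.2.1 c2.2.2.1 c2.2.2.2
    rw [hk, osum_top, h1]
    linarith
  rw [if_neg c2]
  by_cases c3 : e.1 = 1 ∧ e.2.1 = 0 ∧ e.2.2.1 = 0 ∧ e.2.2.2.1 = 0
  · rw [if_pos c3]
    have hk : ckey e = fun b' => if b' = (0 : Fin 4) then 1 else 0 :=
      cbd_ckey e _ c3.1 c3.2.1 c3.2.2.1 c3.2.2.2
    rw [hk, cbd_single c G hp 0, cbd_v1_0]
    push_cast
    linarith
  rw [if_neg c3]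
  by_cases c4 : e.1 = 0 ∧ e.2.1 = 1 ∧ e.2.2.1 = 0 ∧ e.2.2.2.1 = 0
  · rw [if_pos c4]
    have hk : ckey e = fun b' => if b' = (1 : Fin 4) then 1 else 0 :=
      cbd_ckey e _ c4.1 c4.2.1 c4.2.2.1 c4.2.2.2
    rw [hk, cbd_single c G hp 1, cbd_v1_1]
    push_cast
    linarith
  rw [if_neg c4]
  by_cases c5 : e.1 = 0 ∧ e.2.1 = 0 ∧ e.2.2.1 = 1 ∧ e.2.2.2.1 = 0
  · rw [if_pos c5]
    have hk : ckey e = fun b' => if b' = (2 : Fin 4) then 1 else 0 :=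
      cbd_ckey e _ c5.1 c5.2.1 c5.2.2.1 c5.2.2.2
    rw [hk, cbd_single c G hp 2, cbd_v1_2]
    push_cast
    linarith
  rw [if_neg c5]
  by_cases c6 : e.1 = 0 ∧ e.2.1 = 0 ∧ e.2.2.1 = 0 ∧ e.2.2.2.1 = 1
  · rw [if_pos c6]
    have hk : ckey e = fun b' => if b' = (3 : Fin 4) then 1 else 0 :=
      cbd_ckey e _ c6.1 c6.2.1 c6.2.2.1 c6.2.2.2
    rw [hk, cbd_single c G hp 3, cbd_v1_3]
    push_cast
    linarith
  rw [if_neg c6]
  by_cases c7 : 1 ≤ bsz c 0 ∧ e.1 = bsz c 0 - 1 ∧ e.2.1 = bsz c 1 ∧ e.2.2.1 = bsz c 2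
      ∧ e.2.2.2.1 = bsz c 3
  · rw [if_pos c7]
    have hk : ckey e = fun b' => if b' = (0 : Fin 4) then bsz c b' - 1 else bsz c b' :=
      cbd_ckey e _ c7.2.1 c7.2.2.1 c7.2.2.2.1 c7.2.2.2.2
    rw [hk, cbd_cosingle c G hq 0 c7.1, cbd_v2_0]
    push_cast
    linarith
  rw [if_neg c7]
  by_cases c8 : 1 ≤ bsz c 1 ∧ e.1 = bsz c 0 ∧ e.2.1 = bsz c 1 - 1 ∧ e.2.2.1 = bsz c 2
      ∧ e.2.2.2.1 = bsz c 3
  · rw [if_pos c8]
    have hk : ckey e = fun b' => if b' = (1 : Fin 4) then bsz c b' - 1 else bsz c b' :=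
      cbd_ckey e _ c8.2.1 c8.2.2.1 c8.2.2.2.1 c8.2.2.2.2
    rw [hk, cbd_cosingle c G hq 1 c8.1, cbd_v2_1]
    push_cast
    linarith
  rw [if_neg c8]
  by_cases c9 : 1 ≤ bsz c 2 ∧ e.1 = bsz c 0 ∧ e.2.1 = bsz c 1 ∧ e.2.2.1 = bsz c 2 - 1
      ∧ e.2.2.2.1 = bsz c 3
  · rw [if_pos c9]
    have hk : ckey e = fun b' => if b' = (2 : Fin 4) then bsz c b' - 1 else bsz c b' :=
      cbd_ckey e _ c9.2.1 c9.2.2.1 c9.2.2.2.1 c9.2.2.2.2
    rw [hk, cbd_cosingle c G hq 2 c9.1, cbd_v2_2]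
    push_cast
    linarith
  rw [if_neg c9]
  by_cases c10 : 1 ≤ bsz c 3 ∧ e.1 = bsz c 0 ∧ e.2.1 = bsz c 1 ∧ e.2.2.1 = bsz c 2
      ∧ e.2.2.2.1 = bsz c 3 - 1
  · rw [if_pos c10]
    have hk : ckey e = fun b' => if b' = (3 : Fin 4) then bsz c b' - 1 else bsz c b' :=
      cbd_ckey e _ c10.2.1 c10.2.2.1 c10.2.2.2.1 c10.2.2.2.2
    rw [hk, cbd_cosingle c G hq 3 c10.1, cbd_v2_3]
    push_cast
    linarith
  rw [if_neg c10]
  have hab := osum_abs_le c G hG (ckey e)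
  rw [Fin.prod_univ_four] at hab
  have e0 : ckey e 0 = e.1 := rfl
  have e1 : ckey e 1 = e.2.1 := rfl
  have e2 : ckey e 2 = e.2.2.1 := rfl
  have e3 : ckey e 3 = e.2.2.2.1 := rfl
  rw [e0, e1, e2, e3] at hab
  rw [cb_eq, cb_eq, cb_eq, cb_eq]
  push_cast
  calc ((cval e : ℤ) : ℝ) * osum c G (ckey e)
      ≤ |((cval e : ℤ) : ℝ) * osum c G (ckey e)| := le_abs_self _
    _ = |((cval e : ℤ) : ℝ)| * |osum c G (ckey e)| := abs_mul _ _
    _ ≤ |((cval e : ℤ) : ℝ)| * ((((bsz c 0).choose e.1 : ℕ) : ℝ) * (((bsz c 1).choose e.2.1 : ℕ) : ℝ)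
          * (((bsz c 2).choose e.2.2.1 : ℕ) : ℝ) * (((bsz c 3).choose e.2.2.2.1 : ℕ) : ℝ)) :=
        mul_le_mul_of_nonneg_left hab (abs_nonneg _)

end Vale.Agent.H39
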