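import Vale.Agent.H39.D7.OrbGen

/-!
TASK D7-CERTEQ (helper lemmas in this file, names starting `ceq_`).  Uses `osum_eq`, `ssz_le`,
`ssz_sum` (OrbGen.lean) and `krwf_eq` (Krw.lean).

If the list `E` passes `eqOK` (Defs.lean) for the block sizes of `c`, then the weighted sum of
orbit sums of any `G` of degree at most `4` vanishes.

Sketch.  Unfold `eqOK`: `List.all_eq_true`, `List.mem_range`, `Bool.or_eq_true`,
`decide_eq_true_eq` give: for all `s0 s1 s2 s3 < 5` with `s0 + s1 + s2 + s3 ≤ 4`, `s_i ≤ bsz c i`: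
the list sum of `cval e * kprod (bsz c 0) (bsz c 1) (bsz c 2) (bsz c 3) s0 s1 s2 s3 e` is `0`.
For a set `S` with `S.card ≤ 4` take `s_i = ssz c S i` (`ssz_sum` with `Fin.sum_univ_four` gives
the sum `= S.card ≤ 4`, so each `s_i < 5`; `ssz_le`).  With `krwf_eq`, `Fin.prod_univ_four` and
`ckey e 0 = e.1` etc. (`rfl` / `Matrix.cons_val_zero` ...),
`∏ b, krw (bsz c b) (ssz c S b) (ckey e b) = kprod ... e` (cast to `ℝ`: `Int.cast_prod` or
`push_cast`).  Then by `osum_eq`:
the list sum of `cval e * osum c G (ckey e)` equals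
`∑ S, coef G S * List.sum (E.map fun e => cval e * ∏ b, krw (bsz c b) (ssz c S b) (ckey e b))`
(induction on the list `E`: `List.sum_cons`, `Finset.sum_add_distrib`, `Finset.mul_sum`), and
every term vanishes: `coef G S = 0` if `4 < S.card`, the inner list sum is `0` otherwise
(cast of an integer list sum: induction on `E`, or `Int.cast_list_sum` and `List.map_map`).
-/

namespace Vale.Agent.H39

open Finset

theorem ceq_unfold (n0 n1 n2 n3 : ℕ) (E : List CEntry) (hE : eqOK n0 n1 n2 n3 E = true)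
    (s0 s1 s2 s3 : ℕ) (hs : s0 + s1 + s2 + s3 ≤ 4) (h0 : s0 ≤ n0) (h1 : s1 ≤ n1)
    (h2 : s2 ≤ n2) (h3 : s3 ≤ n3) :
    (E.map fun e => cval e * kprod n0 n1 n2 n3 s0 s1 s2 s3 e).sum = 0 := by
  unfold eqOK at hE
  rw [List.all_eq_true] at hE
  have a0 := hE s0 (List.mem_range.mpr (by omega))
  rw [List.all_eq_true] at a0
  have a1 := a0 s1 (List.mem_range.mpr (by omega))
  rw [List.all_eq_true] at a1
  have a2 := a1 s2 (List.mem_range.mpr (by omega))
  rw [List.all_eq_true] at a2
  have a3 := a2 s3 (List.mem_range.mpr (by omega))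
  simp only [Bool.or_eq_true, decide_eq_true_eq] at a3
  rcases a3 with ((((h | h) | h) | h) | h) | h
  · omega
  · omega
  · omega
  · omega
  · omega
  · exact h

theorem ceq_kprod {m : ℕ} (c : Fin m → Fin 4) (S : Finset (Fin m)) (e : CEntry) :
    ∏ b : Fin 4, ((krw (bsz c b) (ssz c S b) (ckey e b) : ℤ) : ℝ)
      = ((kprod (bsz c 0) (bsz c 1) (bsz c 2) (bsz c 3)
          (ssz c S 0) (ssz c S 1) (ssz c S 2) (ssz c S 3) e : ℤ) : ℝ) := by
  rw [Fin.prod_univ_four]
  unfold kprod
  simp only [krwf_eq]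
  push_cast
  rfl

theorem ceq_list {m : ℕ} (c : Fin m → Fin 4) (G : (Fin m → Bool) → ℝ) (L : List CEntry) :
    (L.map fun e => ((cval e : ℤ) : ℝ) * osum c G (ckey e)).sum
      = ∑ S : Finset (Fin m), coef G S *
          (((L.map fun e => cval e * kprod (bsz c 0) (bsz c 1) (bsz c 2) (bsz c 3)
            (ssz c S 0) (ssz c S 1) (ssz c S 2) (ssz c S 3) e).sum : ℤ) : ℝ) := by
  induction L with
  | nil => simp
  | cons e L ih =>
    rw [List.map_cons, List.sum_cons, ih, osum_eq, Finset.mul_sum, ← Finset.sum_add_distrib]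
    apply Finset.sum_congr rfl
    intro S _
    rw [List.map_cons, List.sum_cons, ceq_kprod]
    push_cast
    ring

theorem cert_eq {m : ℕ} (c : Fin m → Fin 4) (G : (Fin m → Bool) → ℝ)
    (hdeg : ∀ S : Finset (Fin m), 4 < S.card → coef G S = 0) (E : List CEntry)
    (hE : eqOK (bsz c 0) (bsz c 1) (bsz c 2) (bsz c 3) E = true) :
    (E.map fun e => ((cval e : ℤ) : ℝ) * osum c G (ckey e)).sum = 0 := by
  rw [ceq_list]
  apply Finset.sum_eq_zero
  intro S _
  by_cases hS : 4 < S.card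
  · rw [hdeg S hS, zero_mul]
  · have hsum := ssz_sum c S
    rw [Fin.sum_univ_four] at hsum
    have h := ceq_unfold _ _ _ _ E hE (ssz c S 0) (ssz c S 1) (ssz c S 2) (ssz c S 3)
      (by omega) (ssz_le c S 0) (ssz_le c S 1) (ssz_le c S 2) (ssz_le c S 3)
    rw [h]
    simp

end Vale.Agent.H39
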