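import Vale.Agent.H39.D4.Main

/-!
# Degree four, block-symmetric certificates: definitions (seat H39)

The variables of a function `G` on the cube `Fin m → Bool` are coloured by `c : Fin m → Fin 4`.
`bwt c u b` is the number of `true` coordinates of `u` of colour `b`, `bsz c b` the number of
coordinates of colour `b`, `ssz c S b` the number of elements of `S` of colour `b`, and
`osum c G x` is the sum of `G` over the points whose block weights are `x`.

`krw n s x` is the coefficient of `t^x` in `(1 - t)^s (1 + t)^(n - s)`: the sum of a character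
`chi S` with `|S| = s` over the points of weight `x` of an `n`-cube.

A certificate is a list of entries `(x0, x1, x2, x3, v)`: the integer weight `v` on the orbit sum
at block weights `(x0, x1, x2, x3)`.  `certOK n0 n1 n2 n3 E` checks (`eqOK`) that the weighted sum
of orbit sums vanishes on every function of degree at most `4`, and (`bdOK`) that the weighted sum
is negative for every sign-valued function with the prescribed values at the two constant points
and at their neighbours (colour `0`: values `1, 1`; colour `1`: `1, -1`; colour `2`: `-1, -1`;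
colour `3`: `-1, 1`).
-/

namespace Vale.Agent.H39

open Finset

/-- the coefficient of `t^x` in `(1 - t)^s (1 + t)^(n - s)` -/
def krw (n s x : ℕ) : ℤ :=
  ∑ j ∈ Finset.range (x + 1), (-1 : ℤ) ^ j * ((s.choose j : ℕ) : ℤ) * (((n - s).choose (x - j) : ℕ) : ℤ)

/-- the number of `true` coordinates of `u` of colour `b` -/
def bwt {m : ℕ} (c : Fin m → Fin 4) (u : Fin m → Bool) (b : Fin 4) : ℕ :=
  (Finset.univ.filter (fun j => c j = b ∧ u j = true)).card

/-- the number of coordinates of colour `b` -/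
def bsz {m : ℕ} (c : Fin m → Fin 4) (b : Fin 4) : ℕ :=
  (Finset.univ.filter (fun j => c j = b)).card

/-- the number of elements of `S` of colour `b` -/
def ssz {m : ℕ} (c : Fin m → Fin 4) (S : Finset (Fin m)) (b : Fin 4) : ℕ :=
  (Finset.univ.filter (fun j => c j = b ∧ j ∈ S)).card

/-- the sum of `G` over the points with block weights `x` -/
noncomputable def osum {m : ℕ} (c : Fin m → Fin 4) (G : (Fin m → Bool) → ℝ) (x : Fin 4 → ℕ) : ℝ :=
  ∑ u : Fin m → Bool, if bwt c u = x then G u else 0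

/-- the value at the neighbours of the all-`false` point, by colour -/
def v1 : Fin 4 → ℤ := ![1, 1, -1, -1]

/-- the value at the neighbours of the all-`true` point, by colour -/
def v2 : Fin 4 → ℤ := ![1, -1, -1, 1]

/-- `krw` computed with the fast binomial `cb` -/
def krwf (n s x : ℕ) : ℤ :=
  (List.range (x + 1)).foldl
    (fun acc j => acc + (-1 : ℤ) ^ j * ((cb s j : ℕ) : ℤ) * ((cb (n - s) (x - j) : ℕ) : ℤ)) 0

/-- a certificate entry: block weights and an integer weight -/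
abbrev CEntry : Type := ℕ × ℕ × ℕ × ℕ × ℤ

/-- the block weights of an entry, as a function -/
def ckey (e : CEntry) : Fin 4 → ℕ := ![e.1, e.2.1, e.2.2.1, e.2.2.2.1]

/-- the weight of an entry -/
def cval (e : CEntry) : ℤ := e.2.2.2.2

/-- the product of the four Krawtchouk numbers of an entry -/
def kprod (n0 n1 n2 n3 s0 s1 s2 s3 : ℕ) (e : CEntry) : ℤ :=
  krwf n0 s0 e.1 * krwf n1 s1 e.2.1 * krwf n2 s2 e.2.2.1 * krwf n3 s3 e.2.2.2.1

/-- the weighted orbit sums vanish on all characters of degree at most `4` -/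
def eqOK (n0 n1 n2 n3 : ℕ) (E : List CEntry) : Bool :=
  (List.range 5).all fun s0 => (List.range 5).all fun s1 => (List.range 5).all fun s2 =>
    (List.range 5).all fun s3 =>
      decide (4 < s0 + s1 + s2 + s3) || decide (n0 < s0) || decide (n1 < s1) || decide (n2 < s2)
        || decide (n3 < s3)
        || decide ((E.map fun e => cval e * kprod n0 n1 n2 n3 s0 s1 s2 s3 e).sum = 0)

/-- an upper bound for `v * (orbit sum at x)` -/
def ubd (n0 n1 n2 n3 : ℕ) (e : CEntry) : ℤ :=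
  if e.1 = 0 ∧ e.2.1 = 0 ∧ e.2.2.1 = 0 ∧ e.2.2.2.1 = 0 then -cval e
  else if e.1 = n0 ∧ e.2.1 = n1 ∧ e.2.2.1 = n2 ∧ e.2.2.2.1 = n3 then cval e
  else if e.1 = 1 ∧ e.2.1 = 0 ∧ e.2.2.1 = 0 ∧ e.2.2.2.1 = 0 then cval e * (n0 : ℤ)
  else if e.1 = 0 ∧ e.2.1 = 1 ∧ e.2.2.1 = 0 ∧ e.2.2.2.1 = 0 then cval e * (n1 : ℤ)
  else if e.1 = 0 ∧ e.2.1 = 0 ∧ e.2.2.1 = 1 ∧ e.2.2.2.1 = 0 then -(cval e * (n2 : ℤ))
  else if e.1 = 0 ∧ e.2.1 = 0 ∧ e.2.2.1 = 0 ∧ e.2.2.2.1 = 1 then -(cval e * (n3 : ℤ))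
  else if 1 ≤ n0 ∧ e.1 = n0 - 1 ∧ e.2.1 = n1 ∧ e.2.2.1 = n2 ∧ e.2.2.2.1 = n3 then
    cval e * (n0 : ℤ)
  else if 1 ≤ n1 ∧ e.1 = n0 ∧ e.2.1 = n1 - 1 ∧ e.2.2.1 = n2 ∧ e.2.2.2.1 = n3 then
    -(cval e * (n1 : ℤ))
  else if 1 ≤ n2 ∧ e.1 = n0 ∧ e.2.1 = n1 ∧ e.2.2.1 = n2 - 1 ∧ e.2.2.2.1 = n3 then
    -(cval e * (n2 : ℤ))
  else if 1 ≤ n3 ∧ e.1 = n0 ∧ e.2.1 = n1 ∧ e.2.2.1 = n2 ∧ e.2.2.2.1 = n3 - 1 then
    cval e * (n3 : ℤ)
  else |cval e| * (((cb n0 e.1 * cb n1 e.2.1 * cb n2 e.2.2.1 * cb n3 e.2.2.2.1 : ℕ)) : ℤ)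

/-- the weighted sum is negative under the boundary conditions -/
def bdOK (n0 n1 n2 n3 : ℕ) (E : List CEntry) : Bool :=
  decide ((E.map (ubd n0 n1 n2 n3)).sum < 0)

/-- the certificate check -/
def certOK (n0 n1 n2 n3 : ℕ) (E : List CEntry) : Bool :=
  eqOK n0 n1 n2 n3 E && bdOK n0 n1 n2 n3 E

end Vale.Agent.H39
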