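import Vale.Agent.H39.D7.Defs

/-!
TASK D7-KRW (proved; the statements are kept exactly; helper lemmas in this file,
names starting `krw_`).  Mathlib only (plus the definitions `krw`, `krwf` of Defs.lean and
`cb`, `cb_eq` of D4/Finite.lean).

`krw n s x = ∑ j ∈ range (x + 1), (-1)^j * C(s, j) * C(n - s, x - j)` is the coefficient of `t^x`
in `[1 - t]^s [1 + t]^(n - s)`.  Needed: value at `x = 0`, the two Pascal-type recurrences, the
case `s = 0`, and the agreement with the list version `krwf`.

Sketches.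
* `krw_zero`: `Finset.sum_range_one`, `Nat.choose_zero_right`.
* `krw_succ_out` (`s ≤ n`, so `n + 1 - s = (n - s) + 1`): `Finset.sum_range_succ` peels the term
  `j = x + 1` (where `C(N + 1, 0) = 1 = C(N, 0)`); for `j ≤ x` write `x + 1 - j = (x - j) + 1` and
  use `Nat.choose_succ_succ'` / `Nat.succ_sub`.
* `krw_succ_in` (`n + 1 - (s + 1) = n - s`): `Finset.sum_range_succ'` peels `j = 0`
  (`C(s + 1, 0) = C(s, 0)`); for `j = i + 1` use `Nat.choose_succ_succ' s i`; the part with
  `C(s, i)` is `-krw n s x` (sign `[-1]^(i+1)`, and `x + 1 - (i + 1) = x - i`), the part with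
  `C(s, i + 1)` together with the peeled term is `krw n s (x + 1)` (`Finset.sum_range_succ'` again).
* `krw_s_zero`: only `j = 0` contributes (`Nat.choose 0 j = 0` for `j ≥ 1`):
  `Finset.sum_eq_single 0`.
* `krwf_eq`: the left fold of `fun acc j => acc + f j` over `List.range k` from `0` is
  `∑ j ∈ Finset.range k, f j`
  (induction on `k`, `List.range_succ`, `List.foldl_append`, `Finset.sum_range_succ`), then
  `cb_eq`.
-/

namespace Vale.Agent.H39

open Finset

theorem krw_zero (n s : ℕ) : krw n s 0 = 1 := by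
  unfold krw
  simp

theorem krw_succ_out (n s x : ℕ) (hs : s ≤ n) :
    krw (n + 1) s (x + 1) = krw n s (x + 1) + krw n s x := by
  have hN : n + 1 - s = (n - s) + 1 := by omega
  have e1 : krw (n + 1) s (x + 1)
      = (∑ j ∈ Finset.range (x + 1), (-1 : ℤ) ^ j * ((s.choose j : ℕ) : ℤ) *
          ((((n - s).choose (x - j) : ℕ) : ℤ) + (((n - s).choose (x - j + 1) : ℕ) : ℤ)))
        + (-1 : ℤ) ^ (x + 1) * ((s.choose (x + 1) : ℕ) : ℤ) := by
    unfold krw
    rw [hN, Finset.sum_range_succ]
    congr 1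
    · apply Finset.sum_congr rfl
      intro j hj
      have hj' : j < x + 1 := Finset.mem_range.mp hj
      have e : x + 1 - j = (x - j) + 1 := by omega
      rw [e, Nat.choose_succ_succ]
      push_cast
      ring
    · simp
  have e2 : krw n s (x + 1)
      = (∑ j ∈ Finset.range (x + 1), (-1 : ℤ) ^ j * ((s.choose j : ℕ) : ℤ) *
          (((n - s).choose (x - j + 1) : ℕ) : ℤ))
        + (-1 : ℤ) ^ (x + 1) * ((s.choose (x + 1) : ℕ) : ℤ) := by
    unfold krw
    rw [Finset.sum_range_succ]
    congr 1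
    · apply Finset.sum_congr rfl
      intro j hj
      have hj' : j < x + 1 := Finset.mem_range.mp hj
      have e : x + 1 - j = (x - j) + 1 := by omega
      rw [e]
    · simp
  have e3 : krw n s x = ∑ j ∈ Finset.range (x + 1), (-1 : ℤ) ^ j * ((s.choose j : ℕ) : ℤ) *
      (((n - s).choose (x - j) : ℕ) : ℤ) := rfl
  rw [e1, e2, e3]
  simp only [mul_add, Finset.sum_add_distrib]
  ring

theorem krw_succ_in (n s x : ℕ) :
    krw (n + 1) (s + 1) (x + 1) = krw n s (x + 1) - krw n s x := by
  have hN : n + 1 - (s + 1) = n - s := by omega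
  have e1 : krw (n + 1) (s + 1) (x + 1)
      = (∑ i ∈ Finset.range (x + 1), (-1 : ℤ) ^ (i + 1) *
          (((s.choose i : ℕ) : ℤ) + ((s.choose (i + 1) : ℕ) : ℤ)) *
          (((n - s).choose (x - i) : ℕ) : ℤ))
        + (((n - s).choose (x + 1) : ℕ) : ℤ) := by
    unfold krw
    rw [hN, Finset.sum_range_succ']
    congr 1
    · apply Finset.sum_congr rfl
      intro i _
      rw [Nat.choose_succ_succ, Nat.add_sub_add_right]
      push_cast
      ring
    · simp
  have e2 : krw n s (x + 1)
      = (∑ i ∈ Finset.range (x + 1), (-1 : ℤ) ^ (i + 1) * ((s.choose (i + 1) : ℕ) : ℤ) *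
          (((n - s).choose (x - i) : ℕ) : ℤ))
        + (((n - s).choose (x + 1) : ℕ) : ℤ) := by
    unfold krw
    rw [Finset.sum_range_succ']
    congr 1
    · apply Finset.sum_congr rfl
      intro i _
      rw [Nat.add_sub_add_right]
    · simp
  have e3 : krw n s x = ∑ j ∈ Finset.range (x + 1), (-1 : ℤ) ^ j * ((s.choose j : ℕ) : ℤ) *
      (((n - s).choose (x - j) : ℕ) : ℤ) := rfl
  rw [e1, e2, e3, eq_sub_iff_add_eq, add_right_comm, ← Finset.sum_add_distrib]
  congr 1
  apply Finset.sum_congr rfl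
  intro i _
  ring

theorem krw_s_zero (n x : ℕ) : krw n 0 x = ((n.choose x : ℕ) : ℤ) := by
  unfold krw
  rw [Finset.sum_eq_single 0]
  · simp
  · intro j _ hj
    have h0 : Nat.choose 0 j = 0 := Nat.choose_eq_zero_of_lt (Nat.pos_of_ne_zero hj)
    simp [h0]
  · intro h
    exact absurd (Finset.mem_range.mpr (Nat.succ_pos x)) h

/-- A left fold adding the values of `f` over `List.range k` is the sum over `Finset.range k`. -/
theorem krw_foldl (f : ℕ → ℤ) (k : ℕ) :
    (List.range k).foldl (fun acc j => acc + f j) 0 = ∑ j ∈ Finset.range k, f j := by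
  induction k with
  | zero => simp
  | succ k ih =>
    rw [List.range_succ, List.foldl_append, ih, Finset.sum_range_succ]
    simp

theorem krwf_eq (n s x : ℕ) : krwf n s x = krw n s x := by
  unfold krwf krw
  rw [krw_foldl (fun j => (-1 : ℤ) ^ j * ((cb s j : ℕ) : ℤ) * ((cb (n - s) (x - j) : ℕ) : ℤ))]
  simp only [cb_eq]

end Vale.Agent.H39
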