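import Vale.Agent.H39.D7.Krw

/-!
TASK D7-ORBCHI (replace the `sorry`, keep the statement exactly; helper lemmas in this file,
names starting `och_`).  You may use the statements of Krw.lean (`krw_zero`, `krw_succ_out`,
`krw_succ_in`) even while they are still `sorry` there.

Orbit sums of a character.  For a colouring `c : Fin m → Fin 4`, a set `S` and block weights
`x : Fin 4 → ℕ`:
`∑_u [bwt c u = x] chi S u = ∏_b krw (bsz c b) (ssz c S b) (x b)`.
(`chi S u = ∏ i ∈ S, bsign (u i)`, `bsign true = -1`; numerically checked for all `m ≤ 7`.)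

Sketch: induction on `m`, for all `c`, `S`, `x`.
* `m = 0`: one point, all cards are `0`; `krw 0 0 y = if y = 0 then 1 else 0`.
* Step `m + 1`: split the cube by the coordinate `0` (`Fin.consEquiv` / `Fin.cons`, or
  `Fin.insertNthEquiv`; `Fintype.sum_equiv`, `Fintype.sum_prod_type`; sums over `Bool` by
  `Fintype.sum_bool`).  With `b0 = c 0`, `c' = fun j => c j.succ`,
  `S' = univ.filter (fun j => j.succ ∈ S)`, `u = Fin.cons bit u'`:
  `bwt c u b = bwt c' u' b + (if c 0 = b ∧ bit = true then 1 else 0)`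
  (`Fin.card_filter_univ_succ`), `bsz c b = bsz c' b + (if c 0 = b then 1 else 0)`,
  `ssz c S b = ssz c' S' b + (if c 0 = b ∧ 0 ∈ S then 1 else 0)`,
  `chi S u = (if 0 ∈ S then bsign bit else 1) * chi S' u'` (`Finset.prod_ite_mem`-style:
  `chi S u = ∏ j, if j ∈ S then bsign (u j) else 1`, see `gfn_chi` in D4/GenFun.lean, then
  `Fin.prod_univ_succ`).  Hence, with `ε = if 0 ∈ S then -1 else 1`,
  `LHS(c, S, x) = LHS(c', S', x) + ε * (if x b0 = 0 then 0 else LHS(c', S', update x b0 (x b0 - 1)))`
  and by induction and `krw_succ_out` / `krw_succ_in` / `krw_zero` (case `x b0 = 0`: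
  both sides reduce since `krw _ _ 0 = 1`) this is the product for `c`: pull the factor `b0` out
  of `∏ b : Fin 4` with `Finset.prod_eq_mul_prod_diff_singleton` or `Fin.prod_univ_four` and
  a case split on `b0`.
-/

namespace Vale.Agent.H39

open Finset

theorem och_bsz {m : ℕ} (c : Fin (m + 1) → Fin 4) (b : Fin 4) :
    bsz c b = bsz (fun j => c j.succ) b + (if c 0 = b then 1 else 0) := by
  unfold bsz
  rw [Fin.card_filter_univ_succ', add_comm]

theorem och_ssz {m : ℕ} (c : Fin (m + 1) → Fin 4) (S : Finset (Fin (m + 1))) (b : Fin 4) :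
    ssz c S b = ssz (fun j => c j.succ) (univ.filter (fun j : Fin m => j.succ ∈ S)) b
      + (if c 0 = b ∧ 0 ∈ S then 1 else 0) := by
  unfold ssz
  rw [Fin.card_filter_univ_succ', add_comm]
  congr 2
  ext j
  simp

theorem och_bwt {m : ℕ} (c : Fin (m + 1) → Fin 4) (bit : Bool) (u : Fin m → Bool) (b : Fin 4) :
    bwt c (Fin.cons bit u : Fin (m + 1) → Bool) b
      = bwt (fun j => c j.succ) u b + (if c 0 = b ∧ bit = true then 1 else 0) := by
  unfold bwt
  rw [Fin.card_filter_univ_succ', add_comm]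
  simp only [Fin.cons_zero, Fin.cons_succ]

theorem och_chi {m : ℕ} (S : Finset (Fin (m + 1))) (bit : Bool) (u : Fin m → Bool) :
    chi S (Fin.cons bit u : Fin (m + 1) → Bool)
      = (if 0 ∈ S then bsign bit else 1) * chi (univ.filter (fun j : Fin m => j.succ ∈ S)) u := by
  rw [gfn_chi, gfn_chi, Fin.prod_univ_succ]
  simp only [Fin.cons_zero, Fin.cons_succ, Finset.mem_filter, Finset.mem_univ, true_and]

theorem och_sum_split {m : ℕ} (f : (Fin (m + 1) → Bool) → ℝ) :
    ∑ u : Fin (m + 1) → Bool, f u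
      = ∑ u : Fin m → Bool, f (Fin.cons false u) + ∑ u : Fin m → Bool, f (Fin.cons true u) := by
  rw [← (Fin.consEquiv (fun _ : Fin (m + 1) => Bool)).sum_comp, Fintype.sum_prod_type,
    Fintype.sum_bool, add_comm]
  rfl

theorem och_cond (w x : Fin 4 → ℕ) (b0 : Fin 4) :
    ((fun b => w b + if b0 = b then 1 else 0) = x) ↔
      (x b0 ≠ 0 ∧ w = Function.update x b0 (x b0 - 1)) := by
  constructor
  · intro h
    subst h
    refine ⟨by simp, ?_⟩
    funext b
    by_cases hb : b = b0
    · subst hb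
      simp
    · rw [Function.update_of_ne hb, if_neg (Ne.symm hb), add_zero]
  · rintro ⟨h0, hw⟩
    funext b
    rw [hw]
    by_cases hb : b = b0
    · subst hb
      rw [Function.update_self, if_pos rfl]
      omega
    · rw [Function.update_of_ne hb, if_neg (Ne.symm hb), add_zero]

theorem och_lhs {m : ℕ} (c : Fin (m + 1) → Fin 4) (S : Finset (Fin (m + 1))) (x : Fin 4 → ℕ) :
    osum c (chi S) x
      = osum (fun j => c j.succ) (chi (univ.filter (fun j : Fin m => j.succ ∈ S))) x
        + (if 0 ∈ S then (-1 : ℝ) else 1) * (if x (c 0) = 0 then 0 else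
            osum (fun j => c j.succ) (chi (univ.filter (fun j : Fin m => j.succ ∈ S)))
              (Function.update x (c 0) (x (c 0) - 1))) := by
  unfold osum
  rw [och_sum_split]
  congr 1
  · apply Finset.sum_congr rfl
    intro u _
    have h1 : bwt c (Fin.cons false u : Fin (m + 1) → Bool) = bwt (fun j => c j.succ) u := by
      funext b
      rw [och_bwt]
      simp
    rw [h1, och_chi]
    simp
  · have h1 : ∀ u : Fin m → Bool, (bwt c (Fin.cons true u : Fin (m + 1) → Bool) = x) ↔
        (x (c 0) ≠ 0 ∧ bwt (fun j => c j.succ) u = Function.update x (c 0) (x (c 0) - 1)) := by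
      intro u
      rw [← och_cond]
      have h2 : bwt c (Fin.cons true u : Fin (m + 1) → Bool)
          = fun b => bwt (fun j => c j.succ) u b + if c 0 = b then 1 else 0 := by
        funext b
        rw [och_bwt]
        simp
      rw [h2]
    by_cases hx0 : x (c 0) = 0
    · rw [if_pos hx0, mul_zero]
      apply Finset.sum_eq_zero
      intro u _
      rw [if_neg]
      rw [h1]
      exact fun h => h.1 hx0
    · rw [if_neg hx0, Finset.mul_sum]
      apply Finset.sum_congr rfl
      intro u _
      rw [och_chi]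
      by_cases hu : bwt (fun j => c j.succ) u = Function.update x (c 0) (x (c 0) - 1)
      · rw [if_pos ((h1 u).2 ⟨hx0, hu⟩), if_pos hu, bsign_true]
      · rw [if_neg (fun h => hu ((h1 u).1 h).2), if_neg hu, mul_zero]

theorem och_krw (n s y : ℕ) (hs : s ≤ n) (p : Prop) [Decidable p] :
    krw (n + 1) (s + (if p then 1 else 0)) y
      = krw n s y + (if p then (-1 : ℤ) else 1) * (if y = 0 then 0 else krw n s (y - 1)) := by
  cases y with
  | zero =>
    rw [krw_zero, krw_zero, if_pos rfl, mul_zero, add_zero]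
  | succ y =>
    have e1 : (if y + 1 = 0 then (0 : ℤ) else krw n s (y + 1 - 1)) = krw n s y := by
      rw [if_neg (Nat.succ_ne_zero y), Nat.add_sub_cancel]
    rw [e1]
    by_cases hp : p
    · rw [if_pos hp, if_pos hp, krw_succ_in]
      ring
    · rw [if_neg hp, if_neg hp, add_zero, krw_succ_out n s y hs]
      ring

theorem och_base (c : Fin 0 → Fin 4) (S : Finset (Fin 0)) (x : Fin 4 → ℕ) :
    osum c (chi S) x = ∏ b : Fin 4, ((krw (bsz c b) (ssz c S b) (x b) : ℤ) : ℝ) := by
  have hS : S = ∅ := Finset.eq_empty_of_isEmpty S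
  subst hS
  have hb : ∀ b, bsz c b = 0 := fun b => by simp [bsz]
  have hs : ∀ b, ssz c (∅ : Finset (Fin 0)) b = 0 := fun b => by simp [ssz]
  have hk : ∀ y : ℕ, krw 0 0 y = if y = 0 then 1 else 0 := by
    intro y
    rw [krw_s_zero]
    cases y <;> simp
  have hw : ∀ u : Fin 0 → Bool, bwt c u = fun _ => 0 := by
    intro u
    funext b
    simp [bwt]
  unfold osum
  rw [Fintype.sum_unique, hw]
  have hchi : ∀ u : Fin 0 → Bool, chi (∅ : Finset (Fin 0)) u = 1 := fun u => by simp [chi]
  rw [hchi]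
  simp only [hb, hs, hk]
  by_cases hx : x = fun _ => 0
  · subst hx
    simp
  · rw [if_neg (Ne.symm hx)]
    obtain ⟨b, hb0⟩ := Function.ne_iff.1 hx
    symm
    apply Finset.prod_eq_zero (Finset.mem_univ b)
    rw [if_neg hb0]
    simp

theorem osum_chi {m : ℕ} (c : Fin m → Fin 4) (S : Finset (Fin m)) (x : Fin 4 → ℕ) :
    osum c (chi S) x = ∏ b : Fin 4, ((krw (bsz c b) (ssz c S b) (x b) : ℤ) : ℝ) := by
  induction m generalizing x with
  | zero => exact och_base c S x
  | succ m ih =>
    obtain ⟨c', S', hc', hS'⟩ : ∃ (c' : Fin m → Fin 4) (S' : Finset (Fin m)),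
        c' = (fun j => c j.succ) ∧ S' = univ.filter (fun j : Fin m => j.succ ∈ S) :=
      ⟨_, _, rfl, rfl⟩
    have hA := och_lhs c S x
    rw [← hc', ← hS'] at hA
    have hB : ∀ b, bsz c b = bsz c' b + (if c 0 = b then 1 else 0) := by
      intro b
      rw [hc']
      exact och_bsz c b
    have hS2 : ∀ b, ssz c S b = ssz c' S' b + (if c 0 = b ∧ 0 ∈ S then 1 else 0) := by
      intro b
      rw [hc', hS']
      exact och_ssz c S b
    rw [hA, ih c' S' x, ih c' S' (Function.update x (c 0) (x (c 0) - 1))]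
    have hle : ssz c' S' (c 0) ≤ bsz c' (c 0) := by
      unfold ssz bsz
      apply card_le_card
      intro j hj
      rw [mem_filter] at hj ⊢
      exact ⟨hj.1, hj.2.1⟩
    have hG0 : ((krw (bsz c (c 0)) (ssz c S (c 0)) (x (c 0)) : ℤ) : ℝ)
        = ((krw (bsz c' (c 0)) (ssz c' S' (c 0)) (x (c 0)) : ℤ) : ℝ)
          + (if 0 ∈ S then (-1 : ℝ) else 1) * (if x (c 0) = 0 then 0 else
            ((krw (bsz c' (c 0)) (ssz c' S' (c 0)) (x (c 0) - 1) : ℤ) : ℝ)) := by
      have h1 : ssz c S (c 0) = ssz c' S' (c 0) + (if 0 ∈ S then 1 else 0) := by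
        rw [hS2]
        simp
      rw [hB, if_pos rfl, h1, och_krw _ _ _ hle]
      push_cast
      split_ifs <;> simp
    have hG : ∀ b ∈ ({c 0}ᶜ : Finset (Fin 4)),
        ((krw (bsz c b) (ssz c S b) (x b) : ℤ) : ℝ)
          = ((krw (bsz c' b) (ssz c' S' b) (x b) : ℤ) : ℝ) := by
      intro b hb
      have hb' : c 0 ≠ b := by
        intro h
        simp [h] at hb
      rw [hB, hS2, if_neg hb', if_neg (fun h => hb' h.1), add_zero, add_zero]
    have hU : ∀ b ∈ ({c 0}ᶜ : Finset (Fin 4)),
        ((krw (bsz c' b) (ssz c' S' b) (Function.update x (c 0) (x (c 0) - 1) b) : ℤ) : ℝ)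
          = ((krw (bsz c' b) (ssz c' S' b) (x b) : ℤ) : ℝ) := by
      intro b hb
      have hb' : b ≠ c 0 := by
        intro h
        simp [h] at hb
      rw [Function.update_of_ne hb']
    rw [Fintype.prod_eq_mul_prod_compl (c 0)
        (fun b => ((krw (bsz c b) (ssz c S b) (x b) : ℤ) : ℝ)),
      Fintype.prod_eq_mul_prod_compl (c 0)
        (fun b => ((krw (bsz c' b) (ssz c' S' b) (x b) : ℤ) : ℝ)),
      Fintype.prod_eq_mul_prod_compl (c 0)
        (fun b => ((krw (bsz c' b) (ssz c' S' b)
          (Function.update x (c 0) (x (c 0) - 1) b) : ℤ) : ℝ)),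
      Finset.prod_congr rfl hG, Finset.prod_congr rfl hU, hG0, Function.update_self]
    by_cases hx0 : x (c 0) = 0
    · simp [hx0]
    · simp only [hx0, if_false]
      ring

end Vale.Agent.H39
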