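import Vale.Agent.H39.D7.OrbChi

/-!
TASK D7-ORBGEN (replace every `sorry`, keep the statements exactly; helper lemmas in this file,
names starting `ogn_`).  You may use `osum_chi` (OrbChi.lean) and `krw_s_zero` (Krw.lean) even
while they are still `sorry` there.

* `ssz_le`: `ssz c S b ≤ bsz c b` (`Finset.card_le_card`, filter monotone).
* `ssz_sum`: `∑ b, ssz c S b = S.card` (`Finset.card_eq_sum_card_fiberwise` for `S` and the map
  `c`, or `Fin.sum_univ_four` and disjoint unions).
* `osum_eq`: by `coef_inversion G u : G u = ∑ S, coef G S * chi S u` (BiasPoly.lean) and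
  linearity (`Finset.sum_comm`, `Finset.mul_sum`), `osum c G x = ∑ S, coef G S * osum c (chi S) x`;
  then `osum_chi`.
* `osum_abs_le`: `|osum c G x| ≤ ∑ u, if bwt c u = x then 1 else 0 = osum c (chi ∅) x`
  (`Finset.abs_sum_le_sum_abs`; `chi ∅ u = 1`), and `osum c (chi ∅) x = ∏ b, C(bsz c b, x b)` by
  `osum_chi` with `ssz c ∅ b = 0` and `krw_s_zero`.
-/

namespace Vale.Agent.H39

open Finset

theorem ssz_le {m : ℕ} (c : Fin m → Fin 4) (S : Finset (Fin m)) (b : Fin 4) :
    ssz c S b ≤ bsz c b := by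
  unfold ssz bsz
  apply Finset.card_le_card
  intro j hj
  rw [Finset.mem_filter] at hj ⊢
  exact ⟨hj.1, hj.2.1⟩

theorem ssz_sum {m : ℕ} (c : Fin m → Fin 4) (S : Finset (Fin m)) :
    ∑ b : Fin 4, ssz c S b = S.card := by
  have h : ∀ b : Fin 4, ssz c S b = (S.filter (fun j => c j = b)).card := by
    intro b
    unfold ssz
    congr 1
    ext j
    simp only [Finset.mem_filter, Finset.mem_univ, true_and]
    exact and_comm
  simp_rw [h]
  exact (Finset.card_eq_sum_card_fiberwise (fun j _ => Finset.mem_univ (c j))).symm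

theorem osum_eq {m : ℕ} (c : Fin m → Fin 4) (G : (Fin m → Bool) → ℝ) (x : Fin 4 → ℕ) :
    osum c G x = ∑ S : Finset (Fin m),
      coef G S * ∏ b : Fin 4, ((krw (bsz c b) (ssz c S b) (x b) : ℤ) : ℝ) := by
  have h1 : osum c G x = ∑ S : Finset (Fin m), coef G S * osum c (chi S) x := by
    unfold osum
    simp_rw [Finset.mul_sum]
    rw [Finset.sum_comm]
    refine Finset.sum_congr rfl (fun u _ => ?_)
    by_cases h : bwt c u = x
    · simp only [if_pos h]
      exact coef_inversion G u
    · simp only [if_neg h, mul_zero, Finset.sum_const_zero]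
  rw [h1]
  refine Finset.sum_congr rfl (fun S _ => ?_)
  rw [osum_chi]

theorem osum_abs_le {m : ℕ} (c : Fin m → Fin 4) (G : (Fin m → Bool) → ℝ)
    (hG : ∀ u, G u = 1 ∨ G u = -1) (x : Fin 4 → ℕ) :
    |osum c G x| ≤ ∏ b : Fin 4, (((bsz c b).choose (x b) : ℕ) : ℝ) := by
  have h1 : |osum c G x| ≤ osum c (chi (∅ : Finset (Fin m))) x := by
    unfold osum
    refine (Finset.abs_sum_le_sum_abs _ _).trans (le_of_eq ?_)
    refine Finset.sum_congr rfl (fun u _ => ?_)
    by_cases h : bwt c u = x
    · rw [if_pos h, if_pos h]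
      have h0 : chi (∅ : Finset (Fin m)) u = 1 := by
        unfold chi
        exact Finset.prod_empty
      rw [h0]
      rcases hG u with h' | h'
      · rw [h', abs_one]
      · rw [h', abs_neg, abs_one]
    · rw [if_neg h, if_neg h, abs_zero]
  rw [osum_chi] at h1
  have h2 : ∀ b : Fin 4, ssz c (∅ : Finset (Fin m)) b = 0 := by
    intro b
    unfold ssz
    rw [Finset.card_eq_zero]
    ext j
    simp
  have h3 : ∏ b : Fin 4, ((krw (bsz c b) (ssz c (∅ : Finset (Fin m)) b) (x b) : ℤ) : ℝ)
      = ∏ b : Fin 4, (((bsz c b).choose (x b) : ℕ) : ℝ) := by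
    refine Finset.prod_congr rfl (fun b _ => ?_)
    rw [h2 b, krw_s_zero, Int.cast_natCast]
  rw [h3] at h1
  exact h1

end Vale.Agent.H39
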